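import Vale.Agent.P267.H181.Frm

/-! P290Z Nk, LOC: Laurent splitting with a parameter, and the scalar problem in two charts. -/

open scoped Manifold ContDiff Topology
open Set Filter Metric

noncomputable section

namespace Vale.Agent.P290Z.Nk.Lc

open Vale.Agent.P267 Vale.Agent.P267.FL

theorem laurent {ψ : ℂ → ℂ} (hψ : ∀ z : ℂ, 1 / 2 < ‖z‖ → ‖z‖ < 2 → DifferentiableAt ℂ ψ z) {u : ℂ}
    (h1 : 2 / 3 < ‖u‖) (h2 : ‖u‖ < 3 / 2) : 2 * Real.pi * Complex.I * ψ u =
      (∮ z in C(0, 3 / 2), (z - u)⁻¹ * ψ z) - ∮ z in C(0, 2 / 3), (z - u)⁻¹ * ψ z := by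
  have ho : IsOpen {z : ℂ | 1 / 2 < ‖z‖ ∧ ‖z‖ < 2} :=
    (isOpen_lt continuous_const continuous_norm).inter (isOpen_lt continuous_norm continuous_const)
  have hd : DifferentiableOn ℂ (dslope ψ u) {z : ℂ | 1 / 2 < ‖z‖ ∧ ‖z‖ < 2} :=
    (Complex.differentiableOn_dslope (ho.mem_nhds ⟨by linarith, by linarith⟩)).2
      fun z hz => (hψ z hz.1 hz.2).differentiableWithinAt
  have hs : closedBall (0 : ℂ) (3 / 2) \ ball 0 (2 / 3) ⊆ {z : ℂ | 1 / 2 < ‖z‖ ∧ ‖z‖ < 2} :=
    fun z hz => by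
      have a1 := mem_closedBall_zero_iff.1 hz.1
      have a2 := not_lt.1 (mt mem_ball_zero_iff.2 hz.2)
      exact ⟨by linarith, by linarith⟩
  have key := Complex.circleIntegral_eq_of_differentiable_on_annulus_off_countable
    (c := 0) (r := 2 / 3) (R := 3 / 2) (by norm_num) (by norm_num) countable_empty
    (hd.continuousOn.mono hs) fun z hz => hd.differentiableAt (ho.mem_nhds (hs
      ⟨ball_subset_closedBall hz.1.1, fun h => hz.1.2 (ball_subset_closedBall h)⟩))
  have e : ∀ r : ℝ, 1 / 2 < r → r < 2 → r ≠ ‖u‖ → (∮ z in C(0, r), dslope ψ u z) =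
      (∮ z in C(0, r), (z - u)⁻¹ * ψ z) - ψ u * ∮ z in C(0, r), (z - u)⁻¹ := by
    intro r r1 r2 r3
    have r0 : 0 ≤ r := by linarith
    have n : ∀ z ∈ sphere (0 : ℂ) r, z ≠ u := fun z hz e =>
      r3 (by rw [← e, mem_sphere_zero_iff_norm.1 hz])
    have c1 : ContinuousOn (fun z : ℂ => (z - u)⁻¹) (sphere 0 r) :=
      (continuousOn_id.sub continuousOn_const).inv₀ fun z hz => sub_ne_zero.2 (n z hz)
    have c2 : ContinuousOn ψ (sphere 0 r) := fun z hz => by
      have := mem_sphere_zero_iff_norm.1 hz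
      exact (hψ z (by linarith) (by linarith)).continuousAt.continuousWithinAt
    rw [← circleIntegral.integral_const_mul, ← circleIntegral.integral_sub
      ((c1.fun_mul c2).circleIntegrable r0) ((continuousOn_const.fun_mul c1).circleIntegrable r0)]
    refine circleIntegral.integral_congr r0 fun z hz => ?_
    rw [dslope_of_ne _ (n z hz), slope_def_field]
    ring
  have z0 : (∮ z in C(0, 2 / 3), (z - u)⁻¹) = 0 := by
    have n : ∀ z ∈ closedBall (0 : ℂ) (2 / 3), DifferentiableAt ℂ (fun z : ℂ => (z - u)⁻¹) z :=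
      fun z hz => (differentiableAt_id.sub_const u).inv (sub_ne_zero.2 fun e => by
        have := mem_closedBall_zero_iff.1 hz
        rw [show z = u from e] at this
        linarith)
    exact Complex.circleIntegral_eq_zero_of_differentiable_on_off_countable (by norm_num)
      countable_empty (fun z hz => (n z hz).continuousAt.continuousWithinAt)
      fun z hz => n z (ball_subset_closedBall hz.1)
  rw [e _ (by norm_num) (by norm_num) h2.ne', e _ (by norm_num) (by norm_num) h1.ne, z0,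
    circleIntegral.integral_sub_inv_of_mem_ball (mem_ball_zero_iff.2 h2)] at key
  linear_combination -key

/-- the change of coordinates -/
def tr (v : C2) : C2 := ![v 0 * v 1 ^ 2, (v 1)⁻¹]

/-- a small bidisc -/
def Bx : Set C2 := {v | ‖v 0‖ < 1 / 8 ∧ ‖v 1‖ < 5 / 4}

theorem isOpen_Bx : IsOpen Bx :=
  (isOpen_lt (continuous_apply 0).norm continuous_const).inter
    (isOpen_lt (continuous_apply 1).norm continuous_const)

/-- the splitting of a holomorphic function on a disc times an annulus -/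
theorem split {ψ : C2 → ℂ}
    (hψ : ∀ v : C2, ‖v 0‖ < 1 / 2 → 1 / 2 < ‖v 1‖ → ‖v 1‖ < 2 → DifferentiableAt ℂ ψ v) :
    ∃ G : Bool → C2 → ℂ, (∀ b, DifferentiableOn ℂ (G b) Bx) ∧
      ∀ v ∈ Bx, v 1 ≠ 0 → tr v ∈ Bx → ψ v = G true v - v 1 * G false (tr v) := by
  have ho : ∀ a b : ℝ, IsOpen {z : ℂ | a < ‖z‖ ∧ ‖z‖ < b} := fun a b =>
    (isOpen_lt continuous_const continuous_norm).inter (isOpen_lt continuous_norm continuous_const)
  have hc : ∀ (h : C2 × ℂ → ℂ) (p : C2 × ℂ), DifferentiableAt ℂ h p → ‖h p‖ < 1 / 2 →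
      1 / 2 < ‖p.2‖ → ‖p.2‖ < 2 → DifferentiableAt ℂ (fun q : C2 × ℂ => ψ ![h q, q.2]) p :=
    fun h p a1 a2 a3 a4 => DifferentiableAt.comp (g := ψ) (f := fun q : C2 × ℂ => ![h q, q.2]) p
      (hψ _ a2 a3 a4) (differentiableAt_pi.2 fun i => by
        fin_cases i
        · exact a1
        · exact differentiableAt_snd)
  have d1 := P281.MF.differentiableOn_circleIntegral (c := 0) (R := 3 / 2) (by norm_num) isOpen_Bx
    (ho (5 / 4) 2) (G := fun q : C2 × ℂ => (q.2 - q.1 1)⁻¹ * ψ ![q.1 0, q.2])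
    (fun z hz => by rw [mem_ofPred_eq, mem_sphere_zero_iff_norm.1 hz]; norm_num)
    fun p ⟨⟨a1, a2⟩, a3, a4⟩ => by
      refine (DifferentiableAt.mul (DifferentiableAt.inv (by fun_prop) (sub_ne_zero.2 fun e => ?_))
        (hc _ p (by fun_prop) (by linarith) (by linarith) a4)).differentiableWithinAt
      rw [e] at a3
      linarith
  have d2 := P281.MF.differentiableOn_circleIntegral (c := 0) (R := 2 / 3) (by norm_num) isOpen_Bx
    (ho (1 / 2) (4 / 5))
    (G := fun q : C2 × ℂ => q.1 1 ^ 2 * (q.2 * q.1 1 - 1)⁻¹ * ψ ![q.1 0 * q.1 1 ^ 2, q.2])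
    (fun z hz => by rw [mem_ofPred_eq, mem_sphere_zero_iff_norm.1 hz]; norm_num)
    fun p ⟨⟨a1, a2⟩, a3, a4⟩ => by
      have a5 := norm_nonneg (p.1 1)
      refine (DifferentiableAt.mul (DifferentiableAt.mul (by fun_prop)
        (DifferentiableAt.inv (by fun_prop) (sub_ne_zero.2 fun e => ?_)))
        (hc _ p (by fun_prop) ?_ a3 (by linarith))).differentiableWithinAt
      · have := congrArg norm e
        rw [norm_mul, norm_one] at this
        nlinarith
      · rw [norm_mul, norm_pow]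
        nlinarith [norm_nonneg (p.1 0)]
  refine ⟨fun b => cond b
    (fun v => (2 * Real.pi * Complex.I)⁻¹ * ∮ z in C(0, 3 / 2), (z - v 1)⁻¹ * ψ ![v 0, z])
    fun v => (2 * Real.pi * Complex.I)⁻¹ *
      ∮ z in C(0, 2 / 3), v 1 ^ 2 * (z * v 1 - 1)⁻¹ * ψ ![v 0 * v 1 ^ 2, z], fun b => ?_,
    fun v hv h0 hv' => ?_⟩
  · cases b
    · exact d2.const_mul _
    · exact d1.const_mul _
  have n1 : 4 / 5 < ‖v 1‖ := by
    have a1 : ‖(v 1)⁻¹‖ < 5 / 4 := hv'.2
    rw [norm_inv, inv_lt_comm₀ (norm_pos_iff.2 h0) (by norm_num)] at a1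
    linarith
  have key := laurent (ψ := fun z => ψ ![v 0, z]) (u := v 1) (fun z a1 a2 =>
    DifferentiableAt.comp (g := fun q : C2 × ℂ => ψ ![v 0, q.2]) (f := fun z => ((0 : C2), z)) z
      (hc (fun _ => v 0) _ (by fun_prop) (by linarith [hv.1]) a1 a2) (by fun_prop))
    (by linarith) (by linarith [hv.2])
  have e1 : (![v 0, v 1] : C2) = v := by
    funext i
    fin_cases i <;> rfl
  have e2 : tr v 0 * tr v 1 ^ 2 = v 0 := by
    simp only [tr, Matrix.cons_val_zero, Matrix.cons_val_one]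
    field_simp
  have e3 : v 1 * (∮ z in C(0, 2 / 3), tr v 1 ^ 2 * (z * tr v 1 - 1)⁻¹ * ψ ![v 0, z]) =
      ∮ z in C(0, 2 / 3), (z - v 1)⁻¹ * ψ ![v 0, z] := by
    rw [← circleIntegral.integral_const_mul]
    refine circleIntegral.integral_congr (by norm_num) fun z _ => ?_
    have a1 : z * (v 1)⁻¹ - 1 = (v 1)⁻¹ * (z - v 1) := by field_simp
    simp only [tr, Matrix.cons_val_zero, Matrix.cons_val_one, a1, mul_inv, inv_inv]
    field_simp
  simp only [cond_true, cond_false, e2]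
  rw [mul_left_comm, e3, ← mul_sub, ← key, e1, inv_mul_cancel_left₀ Complex.two_pi_I_ne_zero]

variable {X : Type} [TopologicalSpace X] [ChartedSpace C2 X] [IsManifold 𝓘(ℂ, C2) ω X]

/-- a potential on a large polydisc -/
theorem pot {c : Ch X} (hc : c ∈ atlas C2 X) (hb : closedBall 0 4 ⊆ c.target)
    {α : X → Fin 2 → ℂ} (hα : ∀ x ∈ c.source, At1 ∞ 0 α x ∧ dbar1 0 α x = 0) :
    ∃ φ : X → ℂ, ∀ x ∈ c.source, ‖c x‖ < 3 → At0 ∞ 0 φ x ∧ dbar0 0 φ x = α x := by
  have h1 : ContinuousOn (loc1 0 c α) (closedBall 0 4) := fun z hz => by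
    have := (hα _ (c.map_target (hb hz))).1.chart hc (c.map_target (hb hz))
    rw [c.right_inv (hb hz)] at this
    exact this.continuousAt.continuousWithinAt
  obtain ⟨A, hA⟩ := (isCompact_closedBall (0 : C2) 4).exists_bound_of_continuousOn h1
  obtain ⟨C, -, hC⟩ := H181.exists_potential (r := 3) (R := 4) (by norm_num) (by norm_num)
  have h2 := ball_subset_closedBall.trans hb
  obtain ⟨φ, p1, p2, -⟩ := hC (α := α) (A := A) hc h2
    ((norm_nonneg _).trans (hA 0 (mem_closedBall_self (by norm_num))))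
    (fun z hz => (hα _ (c.map_target (h2 hz))).1) (fun z hz => (hα _ (c.map_target (h2 hz))).2)
    fun z hz i => (norm_le_pi_norm _ i).trans (hA z (ball_subset_closedBall hz))
  refine ⟨fun y => φ (c y), fun x hx h => ?_⟩
  have e : loc0 0 c (fun y => φ (c y)) =ᶠ[𝓝 (c x)] φ := by
    filter_upwards [c.open_target.mem_nhds (c.map_source hx)] with z hz
    simp [loc0, c.right_inv hz]
  refine ⟨at0_of_chart hc hx (p1.contDiffAt.congr_of_eventuallyEq e), H181.dbar0_of_chart hc hx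
    ((p1.differentiable (by simp) _).congr_of_eventuallyEq e) fun i => ?_⟩
  rw [dzb_congr e]
  exact p2 _ (mem_ball_zero_iff.2 h) i

theorem hol_comp {c : Ch X} (hc : c ∈ atlas C2 X) {x : X} (hx : x ∈ c.source) {g : C2 → ℂ}
    (hg : AnalyticAt ℂ g (c x)) : HolAt 0 (fun y => g (c y)) x := by
  refine holAt_of_chart hc hx (hg.congr ?_)
  filter_upwards [c.open_target.mem_nhds (c.map_source hx)] with z hz
  simp [loc0, c.right_inv hz]

theorem norm_tr {v : C2} (h0 : ‖v 0‖ < 1 / 2) (h1 : 1 / 2 < ‖v 1‖) (h2 : ‖v 1‖ < 2) :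
    ‖v‖ < 3 ∧ ‖tr v‖ < 3 := by
  refine ⟨(pi_norm_lt_iff (by norm_num)).2 fun i => ?_,
    (pi_norm_lt_iff (by norm_num)).2 fun i => ?_⟩
  · fin_cases i
    · exact h0.trans (by norm_num)
    · exact h2.trans (by norm_num)
  · fin_cases i
    · change ‖v 0 * v 1 ^ 2‖ < 3
      rw [norm_mul, norm_pow]
      nlinarith [norm_nonneg (v 0)]
    · change ‖(v 1)⁻¹‖ < 3
      rw [norm_inv, inv_lt_comm₀ (by linarith) (by norm_num)]
      linarith

theorem norm_Bx {v : C2} (h : v ∈ Bx) : ‖v‖ < 3 :=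
  (pi_norm_lt_iff (by norm_num)).2 fun i => by
    fin_cases i
    · exact h.1.trans (by norm_num)
    · exact h.2.trans (by norm_num)

/-- the scalar problem in two charts -/
theorem scalar {c : Bool → Ch X} (hc : ∀ b, c b ∈ atlas C2 X)
    (hb : ∀ b, closedBall 0 4 ⊆ (c b).target)
    (htr : ∀ v ∈ (c true).target, v 1 ≠ 0 → tr v ∈ (c false).target →
      (c false).symm (tr v) = (c true).symm v)
    {α : Bool → X → Fin 2 → ℂ}
    (hα : ∀ b, ∀ x ∈ (c b).source, At1 ∞ 0 (α b) x ∧ dbar1 0 (α b) x = 0)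
    (hrel : ∀ x ∈ (c true).source, x ∈ (c false).source → ∀ i,
      α true x i = c true x 1 * α false x i) :
    ∃ f : Bool → X → ℂ,
      (∀ b, ∀ x ∈ (c b).source, c b x ∈ Bx → At0 ∞ 0 (f b) x ∧ dbar0 0 (f b) x = α b x) ∧
      ∀ x, c true x ∈ Bx → x ∈ (c true).source → c true x 1 ≠ 0 → c false x ∈ Bx →
        c false x = tr (c true x) → f true x = c true x 1 * f false x := by
  choose φ hφ using fun b => pot (hc b) (hb b) (hα b)
  have one : (1 : WithTop ℕ∞) ≤ ∞ := by simp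
  have hu : ∀ x ∈ (c true).source, HolAt 0 (fun y => c true y 1) x := fun x hx =>
    hol_comp (g := fun v => v 1) (hc true) hx
      ((ContinuousLinearMap.proj (R := ℂ) (φ := fun _ : Fin 2 => ℂ) 1).analyticAt _)
  obtain ⟨G, g1, g2⟩ := split
    (ψ := loc0 0 (c true) fun y => φ true y - c true y 1 * φ false y) fun v h0 h1 h2 => by
      obtain ⟨n1, n2⟩ := norm_tr h0 h1 h2
      have t1 := hb true (mem_closedBall_zero_iff.2 (n1.le.trans (by norm_num)))
      have t2 := hb false (mem_closedBall_zero_iff.2 (n2.le.trans (by norm_num)))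
      have e := htr v t1 (norm_pos_iff.1 (by linarith)) t2
      have s1 := (c true).map_target t1
      have s2 := (c false).map_target t2
      have ev : ∀ b x, x ∈ (c b).source → ‖c b x‖ < 3 →
          ∀ᶠ y in 𝓝 x, y ∈ (c b).source ∧ ‖c b y‖ < 3 := fun b x hx h =>
        ((c b).open_source.eventually_mem hx).and
          (((c b).continuousAt hx).norm.eventually_lt_const h)
      have key : HolAt 0 (fun y => φ true y - c true y 1 * φ false y) ((c true).symm v) := by
        refine holAt_of_dbar0 ?_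
        filter_upwards [ev true _ s1 (by rwa [(c true).right_inv t1]),
          ev false _ (e ▸ s2) (by rwa [← e, (c false).right_inv t2])] with y a1 a2
        obtain ⟨b1, b2⟩ := hφ true y a1.1 a1.2
        obtain ⟨b3, b4⟩ := hφ false y a2.1 a2.2
        have b5 := (hu y a1.1).at0 (n := 1)
        refine ⟨(b1.of_le one).sub (b5.mul (b3.of_le one)), funext fun i => ?_⟩
        rw [dbar0_sub (b1.of_le one) (b5.mul (b3.of_le one)), Pi.sub_apply,
          dbar0_mul b5 (b3.of_le one), (hu y a1.1).dbar0, b2, b4, hrel y a1.1 a2.1]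
        simp
      have := key.chart (hc true) s1
      rw [(c true).right_inv t1] at this
      exact this.differentiableAt
  refine ⟨fun b y => φ b y - G b (c b y), fun b x hx h => ?_, fun x h hx h0 h' e => ?_⟩
  · obtain ⟨b1, b2⟩ := hφ b x hx (norm_Bx h)
    have b3 := hol_comp (hc b) hx (P281.MF.analyticAt_of_differentiableOn isOpen_Bx (g1 b) h)
    refine ⟨b1.sub b3.at0, ?_⟩
    rw [dbar0_sub (b1.of_le one) b3.at0, b3.dbar0, b2, sub_zero]
  · have := g2 _ h h0 (e ▸ h')
    simp only [loc0, zpow_zero, one_smul, (c true).left_inv hx, ← e] at this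
    linear_combination this

/-- the maximal atlas -/
@[reducible] def mxl (X : Type) [TopologicalSpace X] [ChartedSpace C2 X]
    [IsManifold 𝓘(ℂ, C2) ω X] : ChartedSpace C2 X where
  atlas := IsManifold.maximalAtlas 𝓘(ℂ, C2) ω X
  chartAt := chartAt C2
  mem_chart_source := mem_chart_source C2
  chart_mem_atlas := IsManifold.chart_mem_maximalAtlas

theorem mxl_manifold : @IsManifold ℂ _ C2 _ _ C2 _ 𝓘(ℂ, C2) ω X _ (mxl X) :=
  @IsManifold.mk' ℂ _ C2 _ _ C2 _ 𝓘(ℂ, C2) ω X _ (mxl X)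
    (@HasGroupoid.mk C2 _ X _ (mxl X) _ fun h h' => IsManifold.compatible_of_mem_maximalAtlas h h')

theorem scalar' {c : Bool → Ch X} (hc : ∀ b, c b ∈ IsManifold.maximalAtlas 𝓘(ℂ, C2) ω X)
    (hb : ∀ b, closedBall 0 4 ⊆ (c b).target)
    (htr : ∀ v ∈ (c true).target, v 1 ≠ 0 → tr v ∈ (c false).target →
      (c false).symm (tr v) = (c true).symm v)
    {α : Bool → X → Fin 2 → ℂ}
    (hα : ∀ b, ∀ x ∈ (c b).source, At1 ∞ 0 (α b) x ∧ dbar1 0 (α b) x = 0)
    (hrel : ∀ x ∈ (c true).source, x ∈ (c false).source → ∀ i,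
      α true x i = c true x 1 * α false x i) :
    ∃ f : Bool → X → ℂ,
      (∀ b, ∀ x ∈ (c b).source, c b x ∈ Bx → At0 ∞ 0 (f b) x ∧ dbar0 0 (f b) x = α b x) ∧
      ∀ x, c true x ∈ Bx → x ∈ (c true).source → c true x 1 ≠ 0 → c false x ∈ Bx →
        c false x = tr (c true x) → f true x = c true x 1 * f false x :=
  @scalar X _ (mxl X) mxl_manifold c hc hb htr α hα hrel

end Vale.Agent.P290Z.Nk.Lc
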